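import Vale.Agent.P221.H746.Kap
import Vale.Agent.P221.H246.BPB

/-!
# P221, part T (helper598): the homotopy of `B ⊗ B` modulo `p`

* `good_BB` : `H746.Good p (B ⊗ B)` for the Brown-Peterson monoid `B`;
* `Good.odd_mod`, `Good.even_mod` : the homotopy of `X ⊗ S/p` for a good object `X`.
-/

open CategoryTheory MonoidalCategory MonObj Limits Pretriangulated

set_option linter.unusedSectionVars false

universe u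

namespace Vale.Agent.P221.T.H598

open Vale.Agent.P251 Vale.Agent.P251.S Vale.Agent.P251.T Vale.Agent.P251.M Vale.Agent.P251.F
  Vale.Agent.P251.I EvenSpheres Vale.Agent.P257.H80 Vale.Agent.P251.Q Vale.Agent.P221.H924
  Vale.Agent.P093.N0 Vale.Agent.P221.H746

variable {𝒯 : Type u} [Category.{0} 𝒯] [Preadditive 𝒯] [HasZeroObject 𝒯]
    [HasShift 𝒯 ℤ] [∀ n : ℤ, (shiftFunctor 𝒯 n).Additive] [Pretriangulated 𝒯] [IsTriangulated 𝒯]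
    [MonoidalCategory 𝒯] [SymmetricCategory 𝒯] [TensorTriangulated 𝒯] [MonoidalClosed 𝒯]
    [HasCoproducts.{0} 𝒯] [HasProducts.{0} 𝒯] [StableCat 𝒯]

variable {D : MUData 𝒯} {p : ℕ} [hp : Fact p.Prime]

/-- the tensor powers of `MU` are good -/
theorem good_am' (hA : MUAll D) (s : ℕ) : Good p (Am D.R (s + 1)) := by
  obtain ⟨C, i, δ, hC⟩ := exists_moore (𝒯 := 𝒯) (p : ℤ)
  have hodd : ∀ (k : ℤ) (W : 𝒯) (_ : W ≅ (𝟙_ 𝒯)⟦2 * k + 1⟧) (f : W ⟶ Am D.R (s + 1) ⊗ C), f = 0 := by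
    intro k W e f
    rw [← cancel_epi e.inv, hA.odd p s C i δ hC k (e.inv ≫ f), comp_zero]
  refine ⟨fun w a ha => ?_, fun k a ha => ?_, fun k a => ?_⟩
  · refine torsionFree_of_lift hC (fun f => ⟨0, ?_⟩) a ha
    rw [zero_comp]
    refine hodd w _ ((shiftFunctor 𝒯 (1 : ℤ)).mapIso (stdSph w) ≪≫
      ((shiftFunctorAdd' 𝒯 (2 * w) 1 (2 * w + 1) rfl).app _).symm) f
  · refine torsionFree_of_lift hC (fun f => ?_) a ha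
    have e : (stdEven 𝒯).S (k + 1) ≅ ((𝟙_ 𝒯)⟦2 * k + 1⟧)⟦(1 : ℤ)⟧ :=
      stdSph (k + 1) ≪≫ (shiftFunctorAdd' 𝒯 (2 * k + 1) 1 (2 * (k + 1)) (by ring)).app _
    obtain ⟨_, a', _, _, h2⟩ := hA.surj p s C i δ hC (k + 1) (e.hom ≫ f)
    refine ⟨e.inv ≫ a', ?_⟩
    rw [← cancel_epi e.hom, h2, Category.assoc, Iso.hom_inv_id_assoc]
  · exact ModP.exists_zsmul_of_comp_eq_zero hC a (hA.odd p s C i δ hC k _)

/-- `MU ⊗ MU` is good. -/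
theorem good_mu2 (hA : MUAll D) : Good p (D.R ⊗ D.R) :=
  (good_am' hA 1).retract (inv (amPair D.R)) (amPair D.R) (IsIso.inv_hom_id _)

/-- `R ⊗ X` is good if and only if its `p`-localization is. -/
theorem good_loc_tensor {R Rp : 𝒯} {l : R ⟶ Rp} (h : Vale.Agent.P257.H604.IsPLoc p l) (X : 𝒯)
    (hX : Good p (R ⊗ X)) : Good p (Rp ⊗ X) := by
  obtain ⟨U, -, -, -⟩ := Vale.Agent.P257.H604.exists_locUnit (T := 𝒯) hp.out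
  have h1 := Vale.Agent.P257.H604.isPLoc_tel hp.out (R ⊗ X) U
  have hl : Vale.Agent.P257.H604.LocObj p (Rp ⊗ X) := h.loc.map (tensorRight X)
  obtain ⟨φ, hφ⟩ := (h.bij _ h1.loc X).2 ((ρ_ (R ⊗ X)).inv ≫ (R ⊗ X) ◁ U.ι 0)
  obtain ⟨ψ, hψ⟩ := (h1.bij_unit hl).2 (l ▷ X)
  dsimp only at hφ hψ
  refine (hX.loc hp.out (IsPLoc.isLocPi h1) h1.loc).retract φ ψ ?_
  apply (h.bij _ hl X).1
  dsimp only
  rw [← Category.assoc, hφ, hψ, Category.comp_id]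

section bp

variable {F : SpaceFunctor 𝒯} {e : F.S.obj CCF ≅ (stdEven 𝒯).L}
  {B : 𝒯} [MonObj B] [IsCommMonObj B] {b : D.R ⟶ B} [IsMonHom b]

/-- `B ⊗ MU` is good. -/
theorem good_BR (hD : MUUniv e D) (hA : MUAll D) (hb : IsBPMon p b) : Good p (B ⊗ D.R) := by
  obtain ⟨Rp, _, _, l, _, hl, f, _, g, _, _, hfg, _⟩ := exists_retract hD hb
  refine (good_loc_tensor hl D.R (good_mu2 hA)).retract (f ▷ D.R) (g ▷ D.R) ?_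
  rw [← comp_whiskerRight, hfg, id_whiskerRight]

/-- **`B ⊗ B` is good.** -/
theorem good_BB (hD : MUUniv e D) (hA : MUAll D) (hb : IsBPMon p b) : Good p (B ⊗ B) := by
  obtain ⟨σ, _, _, _, hret⟩ := Vale.Agent.P221.H246.exists_sigma hD hb
  exact (good_BR hD hA hb).retract σ (B ◁ b) hret

end bp

/-! ### the homotopy of `X ⊗ S/p` -/

section mod

variable {C : 𝒯} {i : 𝟙_ 𝒯 ⟶ C} {δ : C ⟶ (𝟙_ 𝒯)⟦(1 : ℤ)⟧}

/-- Maps `W⟦1⟧ ⟶ X ⊗ S/p` lift to `X` if `W ⟶ X` has no `p`-torsion. -/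
theorem exists_lift_of_torsionFree {p : ℤ} (hC : Triangle.mk (p • 𝟙 (𝟙_ 𝒯)) i δ ∈ distTriang 𝒯)
    {X W V : 𝒯} (e : V ≅ W⟦(1 : ℤ)⟧) (ht : ∀ a : W ⟶ X, p • a = 0 → a = 0) (f : V ⟶ X ⊗ C) :
    ∃ a : V ⟶ X, f = a ≫ (ρ_ X).inv ≫ (X ◁ i) := by
  obtain ⟨m, hD⟩ := ModP.exists_dist hC X
  have h1 : m ≫ (p • 𝟙 (X ⊗ 𝟙_ 𝒯))⟦(1 : ℤ)⟧' = 0 := comp_distTriang_mor_zero₃₁ _ hD
  obtain ⟨g, hg⟩ := (shiftFunctor 𝒯 (1 : ℤ)).map_surjective (e.inv ≫ f ≫ m)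
  have h2 : p • g = 0 := by
    apply (shiftFunctor 𝒯 (1 : ℤ)).map_injective
    have h3 : (p • g)⟦(1 : ℤ)⟧' = g⟦(1 : ℤ)⟧' ≫ (p • 𝟙 (X ⊗ 𝟙_ 𝒯))⟦(1 : ℤ)⟧' := by
      rw [← Functor.map_comp, Preadditive.comp_zsmul, Category.comp_id]
    rw [h3, hg, Category.assoc, Category.assoc, h1, comp_zero, comp_zero, Functor.map_zero]
  have h3 : g ≫ (ρ_ X).hom = 0 := ht _ (by rw [← Preadditive.zsmul_comp, h2, zero_comp])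
  have h4 : g = 0 := by rw [← cancel_mono (ρ_ X).hom, h3, zero_comp]
  rw [h4, Functor.map_zero] at hg
  have h5 : f ≫ m = 0 := by rw [← cancel_epi e.inv, ← hg, comp_zero]
  obtain ⟨a, ha⟩ : ∃ a : V ⟶ X ⊗ 𝟙_ 𝒯, f = a ≫ (X ◁ i) := Triangle.coyoneda_exact₃ _ hD f h5
  refine ⟨a ≫ (ρ_ X).hom, ?_⟩
  rw [Category.assoc, Iso.hom_inv_id_assoc]
  exact ha

/-- the odd homotopy of `X ⊗ S/p` vanishes -/
theorem Good.odd_mod {X : 𝒯} (h : Good p X)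
    (hC : Triangle.mk ((p : ℤ) • 𝟙 (𝟙_ 𝒯)) i δ ∈ distTriang 𝒯) (k : ℤ)
    (f : (𝟙_ 𝒯)⟦2 * k + 1⟧ ⟶ X ⊗ C) : f = 0 := by
  obtain ⟨a, rfl⟩ := exists_lift_of_torsionFree hC (W := (stdEven 𝒯).S k)
    ((shiftFunctorAdd' 𝒯 (2 * k) 1 (2 * k + 1) rfl).app _ ≪≫
      (shiftFunctor 𝒯 (1 : ℤ)).mapIso (stdSph k).symm) (h.tfE k) f
  obtain ⟨c, rfl⟩ := h.oddDiv k a
  exact ModP.zsmul_comp_eq_zero hC c

/-- the even homotopy of `X ⊗ S/p` comes from `X` -/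
theorem Good.even_mod {X : 𝒯} (h : Good p X)
    (hC : Triangle.mk ((p : ℤ) • 𝟙 (𝟙_ 𝒯)) i δ ∈ distTriang 𝒯) (w : ℤ)
    (f : (stdEven 𝒯).S w ⟶ X ⊗ C) : ∃ a, f = a ≫ (ρ_ X).inv ≫ (X ◁ i) :=
  exists_lift_of_torsionFree hC (W := (𝟙_ 𝒯)⟦2 * (w - 1) + 1⟧)
    (stdSph w ≪≫ (shiftFunctorAdd' 𝒯 (2 * (w - 1) + 1) 1 (2 * w) (by ring)).app _)
    (h.oddTf (w - 1)) f

/-- the even homotopy of `X ⊗ S/p` comes from `X` -/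
theorem Good.even_mod' {X : 𝒯} (h : Good p X)
    (hC : Triangle.mk ((p : ℤ) • 𝟙 (𝟙_ 𝒯)) i δ ∈ distTriang 𝒯) (w : ℤ)
    (f : (𝟙_ 𝒯)⟦2 * w⟧ ⟶ X ⊗ C) : ∃ a, f = a ≫ (ρ_ X).inv ≫ (X ◁ i) :=
  exists_lift_of_torsionFree hC (W := (𝟙_ 𝒯)⟦2 * (w - 1) + 1⟧)
    ((shiftFunctorAdd' 𝒯 (2 * (w - 1) + 1) 1 (2 * w) (by ring)).app _)
    (h.oddTf (w - 1)) f

end mod

end Vale.Agent.P221.T.H598
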