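import Vale.Agent.P221.T.H924.Compl
import Vale.Agent.P221.T.H817.PComm
import Vale.Agent.P221.H246.EtaT
import Vale.Agent.P221.T.H598.GoodBB

/-!
# P221, part T (helper598): existence of `BPS` for a Brown-Peterson monoid

* `mkBPS` : `BPS p B P W` from `CompD p B P W` and the freeness of `π_* P` and `π_* W`.
-/

open CategoryTheory MonoidalCategory MonObj Limits Pretriangulated
open MvPolynomial (coeff)

set_option linter.unusedSectionVars false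

universe u

namespace Vale.Agent.P221.T.H598

open Vale.Agent.P251 Vale.Agent.P251.S Vale.Agent.P251.T Vale.Agent.P251.M Vale.Agent.P251.F
  Vale.Agent.P251.I EvenSpheres Vale.Agent.P257.H80 Vale.Agent.P251.Q
  Vale.Agent.P093.N0 Vale.Agent.P221.H746
open Vale.Agent.P221.H246 (sI vcl tau tau_zero tau_mul tau_basis etaR_eq of_X sV_eq)
open Vale.Agent.P221.T.H509 (kkT kkT_v kkT_C kkT_lin)
open Vale.Agent.P221.T.H924 (CompD exists_compD)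

variable {𝒯 : Type u} [Category.{0} 𝒯] [Preadditive 𝒯] [HasZeroObject 𝒯]
    [HasShift 𝒯 ℤ] [∀ n : ℤ, (shiftFunctor 𝒯 n).Additive] [Pretriangulated 𝒯] [IsTriangulated 𝒯]
    [MonoidalCategory 𝒯] [SymmetricCategory 𝒯] [TensorTriangulated 𝒯] [MonoidalClosed 𝒯]
    [HasCoproducts.{0} 𝒯] [HasProducts.{0} 𝒯] [StableCat 𝒯]

variable {D : MUData 𝒯} {F : SpaceFunctor 𝒯} {e : F.S.obj CCF ≅ (stdEven 𝒯).L}
  {p : ℕ} [hp : Fact p.Prime] {B : 𝒯} [MonObj B] [IsCommMonObj B] {b : D.R ⟶ B} [IsMonHom b]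

/-- the freeness of `π_* P` (the field `free`) -/
def FreeP {P W : 𝒯} (Φ : MvPolynomial ℕ ℤ →+* HRing (stdEven 𝒯) B) (cd : CompD p B P W) : Prop :=
  ∀ (k : ℤ) (z : (𝟙_ 𝒯)⟦k⟧ ⟶ P), ∃! f : KK p, HK p k f ∧
    PiM.of P k z = kkT (pComm (vcl p Φ)) cd.MP cd.cP f (PiM.of P 0 (zr 𝒯 ≫ η[B] ≫ cd.c))

variable (b) in
/-- the freeness of `π_* W` (the field `freeW`) -/
def FreeW {P W : 𝒯} (Φ : MvPolynomial ℕ ℤ →+* HRing (stdEven 𝒯) B) (cd : CompD p B P W) : Prop :=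
  ∀ (k : ℤ) (z : (𝟙_ 𝒯)⟦k⟧ ⟶ W), ∃! g : GG p, (∀ E, HK p (k - dT p E) (coeff E g)) ∧
    PiM.of W k z = ∑ E ∈ g.support, kkT (pComm (vcl p Φ)) cd.MW cd.cW (coeff E g)
      (PiM.of W (dT p E) (tau p b E ≫ cd.w))

/-- **the homotopy modules over the Brown-Peterson monoid** -/
noncomputable def mkBPS (hD : MUUniv e D) (hb : IsBPMon p b)
    {Φ : MvPolynomial ℕ ℤ →+* HRing (stdEven 𝒯) B} (hΦ : lawOf b = (haz p).map Φ)
    {P W : 𝒯} (cd : CompD p B P W) (hP : FreeP Φ cd) (hW : FreeW b Φ cd) : BPS p B P W where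
  MP := cd.MP
  MW := cd.MW
  cP := cd.cP
  cW := cd.cW
  c := cd.c
  w := cd.w
  c_lin := cd.c_lin
  w_lin := cd.w_lin
  c_bij := cd.c_bij
  w_bij := cd.w_bij
  v := vcl p Φ
  kk := fun M hY => kkT (pComm (vcl p Φ)) M hY
  kk_v := fun M hY i _ _ h y => kkT_v (pComm (vcl p Φ)) M hY i h y
  kk_C := fun M hY a _ y => kkT_C (pComm (vcl p Φ)) M hY a y
  kk_lin := fun M hY N hZ _ f hf a y => kkT_lin (pComm (vcl p Φ)) M hY N hZ f hf a y
  free := hP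
  τ := tau p b
  τ_zero := tau_zero
  τ_mul := tau_mul
  basis := fun M _ k y => tau_basis hD hb M k y
  freeW := hW
  ηR := H520.ηR p
  ηR_hom := H520.ηR_hom p
  ηR_mod := H520.ηR_mod p
  ηR_eq := fun i E _ h => etaR_eq hb hΦ cd.w_lin cd.cW _
    (fun i _ _ h y => kkT_v (pComm (vcl p Φ)) cd.MW cd.cW i h y) i E h

/-- existence of `BPS`, from the freeness of the homotopy of the completions -/
theorem exists_BPS_of (hD : MUUniv e D) (hb : IsBPMon p b)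
    {Φ : MvPolynomial ℕ ℤ →+* HRing (stdEven 𝒯) B} (hΦ : lawOf b = (haz p).map Φ)
    (hP : ∀ {P W : 𝒯} (cd : CompD p B P W), FreeP Φ cd)
    (hW : ∀ {P W : 𝒯} (cd : CompD p B P W), FreeW b Φ cd) :
    ∃ (P W : 𝒯) (bs : BPS p B P W), ∀ i, ∃ (w : ℤ) (hw : sV p (i + 1) = 2 * w)
      (u : (stdEven 𝒯).S w ⟶ B), bs.v i = eqToHom (by rw [hw]) ≫ (stdSph w).inv ≫ u ∧
        HRing.of (stdEven 𝒯) B w u = Φ (MvPolynomial.X i) := by
  obtain ⟨P, W, ⟨cd⟩⟩ := exists_compD (𝒯 := 𝒯) p B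
  refine ⟨P, W, mkBPS hD hb hΦ cd (hP cd) (hW cd), fun i =>
    ⟨((p ^ (i + 1) - 1 : ℕ) : ℤ), sV_eq p i, (Φ (MvPolynomial.X i)) _, ?_, of_X hb hΦ i⟩⟩
  exact Category.assoc _ _ _

end Vale.Agent.P221.T.H598
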