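import Vale.Agent.P221.T.H598.Mult

/-!
# P221, part T: the leaf `SpecB1`
-/

open CategoryTheory MonoidalCategory MonObj Limits Pretriangulated
open MvPolynomial (C coeff monomial)
open Vale.Agent.P251.T Vale.Agent.P251.M Vale.Agent.P251.S

set_option linter.unusedSectionVars false

universe u

namespace Vale.Agent.P221.T.H598

variable {𝒯 : Type u} [Category.{0} 𝒯] [Preadditive 𝒯] [HasZeroObject 𝒯]
    [HasShift 𝒯 ℤ] [∀ n : ℤ, (shiftFunctor 𝒯 n).Additive] [Pretriangulated 𝒯] [IsTriangulated 𝒯]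
    [MonoidalCategory 𝒯] [SymmetricCategory 𝒯] [TensorTriangulated 𝒯] [MonoidalClosed 𝒯]
    [HasCoproducts.{0} 𝒯] [HasProducts.{0} 𝒯] [StableCat 𝒯]

variable {p : ℕ} [Fact p.Prime] {R P W : 𝒯} [MonObj R] [IsCommMonObj R] (b : BPS p R P W)

theorem uniq_hom {Y : 𝒯} (hY : H395.PComplete p Y) (A : 𝒯) : H769.Uniq p (A ⟶ Y) := by
  obtain ⟨C, i, δ, hC⟩ := distinguished_cocone_triangle ((p : ℤ) • 𝟙 (𝟙_ 𝒯))
  exact H769.uniq_of_dc (H509.dc_hom hC hY A)

/-- the completed map of `mult (X i)` on the classes `t^E` -/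
theorem gc_Wm_X (i : ℕ) (E : ℕ →₀ ℕ) {k : ℤ} (h : sV p (i + 1) + dT p E = k) :
    gc h (b.τ E ≫ b.w) (b.Wm (b.mult (sV p (i + 1)) (MvPolynomial.X i))) =
      gc h (b.τ E) (fm (tensorLeft R) (rmul (b.v i))) ≫ b.w := by
  rw [gc_map, b.w_Wm]
  have h1 : (R ◁ b.c)⟦sV p (i + 1)⟧' ≫
      fm (tensorLeft R) (b.mult (sV p (i + 1)) (MvPolynomial.X i)) ≫ b.w' =
      fm (tensorLeft R) (rmul (b.v i)) ≫ b.w := by
    have h2 := shift_fm (tensorLeft R) b.c (b.mult (sV p (i + 1)) (MvPolynomial.X i))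
    rw [c_mult, hat_cls_X, fm_comp] at h2
    have h3 : (R ◁ b.c)⟦sV p (i + 1)⟧' ≫
      fm (tensorLeft R) (b.mult (sV p (i + 1)) (MvPolynomial.X i)) =
        fm (tensorLeft R) (rmul (b.v i)) ≫ (R ◁ b.c) := h2.symm
    rw [← Category.assoc, h3, Category.assoc, b.c_w']
  rw [h1, gc_comp]

theorem ω_smul (a : KK p) (g : GG p) : b.ω (C a * g) = b.kk b.MW b.cW a (b.ω g) := by
  letI := b.mdl b.MW b.cW
  have h : C a * g = a • g := (MvPolynomial.C_mul' ).trans rfl
  rw [h, map_smul]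
  rfl

theorem T_X (A1 : b.SpecA1) (i : ℕ) (z : GG p) :
    b.T (b.mult (sV p (i + 1)) (MvPolynomial.X i)) z = b.ηR i * z := by
  have h1 : ∀ E : ℕ →₀ ℕ, b.T (b.mult (sV p (i + 1)) (MvPolynomial.X i)) (monomial E 1) =
      monomial E 1 * b.ηR i := by
    intro E
    apply A1.ω_bij.1
    rw [A1.ω_T, b.ω_monomial, map_of rfl, gc_Wm_X, b.ηR_eq i E rfl, b.ω_apply]
  have h2 : b.T (b.mult (sV p (i + 1)) (MvPolynomial.X i)) =
      LinearMap.mulLeft (KK p) (b.ηR i) := by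
    refine (MvPolynomial.basisMonomials ℕ (KK p)).ext fun E => ?_
    rw [MvPolynomial.coe_basisMonomials, h1, LinearMap.mulLeft_apply, mul_comm]
  rw [h2, LinearMap.mulLeft_apply]

theorem map_add' {Y Z : 𝒯} {j : ℤ} (f g : Y⟦j⟧ ⟶ Z) (x : PiM Y) :
    PiM.map (f + g) x = PiM.map f x + PiM.map g x := by
  induction x using DirectSum.induction_on with
  | zero => rw [map_zero, map_zero, map_zero, add_zero]
  | of k y =>
    change PiM.map (f + g) (PiM.of Y k y) = PiM.map f (PiM.of Y k y) + PiM.map g (PiM.of Y k y)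
    rw [map_of rfl, map_of rfl, map_of rfl, gc_add_right, map_add]
  | add x y hx hy =>
    rw [map_add, hx, hy, map_add, map_add]
    abel

/-- constants -/
theorem map_Wm_C (k : ℤ) (f : KK p) (a : ℤ_[p]) (x : PiM W) :
    PiM.map (b.Wm (b.mult k (C a * f))) x =
      b.kk b.MW b.cW (C a) (PiM.map (b.Wm (b.mult k f)) x) := by
  induction x using DirectSum.induction_on with
  | zero => simp only [map_zero]
  | of d y =>
    change PiM.map (b.Wm (b.mult k (C a * f))) (PiM.of W d y) =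
      b.kk b.MW b.cW (C a) (PiM.map (b.Wm (b.mult k f)) (PiM.of W d y))
    rw [map_of rfl, map_of rfl]
    set y' := gc (rfl : k + d = k + d) y (b.Wm (b.mult k f)) with hy'
    let φ : ℤ_[p] →+ ((𝟙_ 𝒯)⟦k + d⟧ ⟶ W) := AddMonoidHom.mk'
      (fun a => gc (rfl : k + d = k + d) y (b.Wm (b.mult k (C a * f))))
      (fun a a' => by rw [map_add, _root_.add_mul, mult_add, b.Wm_add, gc_add_right])
    let ψ : ℤ_[p] →+ ((𝟙_ 𝒯)⟦k + d⟧ ⟶ W) := AddMonoidHom.mk'
      (fun a => (b.kk b.MW b.cW (C a) (PiM.of W (k + d) y')) (k + d))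
      (fun a a' => by
        rw [map_add, map_add]
        exact DirectSum.add_apply _ _ _)
    have h1 : φ = ψ := by
      refine H769.hom_ext_one (uniq_hom b.cW _) ?_
      change gc rfl y (b.Wm (b.mult k (C 1 * f))) =
        (b.kk b.MW b.cW (C 1) (PiM.of W (k + d) y')) (k + d)
      rw [map_one, _root_.one_mul, map_one]
      exact (of_apply y').symm
    obtain ⟨z, hz⟩ := b.kk_C b.MW b.cW a y'
    have h2 : φ a = z := by
      rw [h1]
      change (b.kk b.MW b.cW (C a) (PiM.of W (k + d) y')) (k + d) = z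
      rw [hz, of_apply]
    rw [hz, ← h2]
    rfl
  | add x y hx hy => rw [map_add, hx, hy, map_add, map_add]

theorem T_C_mul (A1 : b.SpecA1) (k : ℤ) (f : KK p) (a : ℤ_[p]) (z : GG p) :
    b.T (b.mult k (C a * f)) z = C (C a) * b.T (b.mult k f) z := by
  apply A1.ω_bij.1
  rw [A1.ω_T, map_Wm_C, ω_smul, A1.ω_T]

theorem map_unit (x : PiM W) : PiM.map ((shiftFunctorZero 𝒯 ℤ).hom.app W) x = x := by
  induction x using DirectSum.induction_on with
  | zero => simp only [map_zero]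
  | of k y =>
    change PiM.map ((shiftFunctorZero 𝒯 ℤ).hom.app W) (PiM.of W k y) = PiM.of W k y
    rw [map_of (zero_add k)]
    have h1 := gc_zero_shift (zero_add k) y (𝟙 W)
    have h2 : (shiftFunctorZero 𝒯 ℤ).hom.app W ≫ 𝟙 W = (shiftFunctorZero 𝒯 ℤ).hom.app W :=
      Category.comp_id _
    rw [h2, Category.comp_id] at h1
    exact congrArg (PiM.of W k) h1
  | add x y hx hy => rw [map_add, hx, hy]

theorem Wm_unit : b.Wm ((shiftFunctorZero 𝒯 ℤ).hom.app P) = (shiftFunctorZero 𝒯 ℤ).hom.app W := by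
  apply b.wext_unique b.cW
  rw [b.w_Wm]
  have h1 : fm (tensorLeft R) ((shiftFunctorZero 𝒯 ℤ).hom.app P) =
      (shiftFunctorZero 𝒯 ℤ).hom.app (R ⊗ P) := by
    unfold fm
    rw [Functor.commShiftIso_zero, Functor.CommShift.isoZero_inv_app, Category.assoc,
      ← Functor.map_comp, Iso.inv_hom_id_app]
    simp
  rw [h1, ← Category.assoc]
  have h2 : (R ◁ b.c)⟦(0 : ℤ)⟧' ≫ (shiftFunctorZero 𝒯 ℤ).hom.app (R ⊗ P) =
      (shiftFunctorZero 𝒯 ℤ).hom.app (R ⊗ R) ≫ (R ◁ b.c) :=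
    (shiftFunctorZero 𝒯 ℤ).hom.naturality _
  rw [h2, Category.assoc, b.c_w']
  exact ((shiftFunctorZero 𝒯 ℤ).hom.naturality b.w).symm

theorem T_one (A1 : b.SpecA1) (z : GG p) : b.T (b.mult 0 1) z = z := by
  apply A1.ω_bij.1
  rw [A1.ω_T, mult_one, Wm_unit, map_unit]

theorem HK_monomial (E : ℕ →₀ ℕ) (a : ℤ_[p]) : HK p (wv p E) (monomial E a) :=
  MvPolynomial.isWeightedHomogeneous_monomial _ _ _ rfl

theorem eta_X (i : ℕ) : b.eta (MvPolynomial.X i) = b.ηR i := by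
  unfold BPS.eta
  exact MvPolynomial.eval₂Hom_X' _ _ _

theorem eta_C (a : ℤ_[p]) : b.eta (C a) = C (C a) := by
  unfold BPS.eta
  rw [MvPolynomial.eval₂Hom_C]
  rfl

theorem T_monomial (A1 : b.SpecA1) (E : ℕ →₀ ℕ) :
    ∀ (k : ℤ) (_ : wv p E = k) (z : GG p), b.T (b.mult k (monomial E 1)) z =
      b.eta (monomial E 1) * z := by
  induction E using ind_add_single with
  | h0 =>
    intro k hk z
    rw [wv_zero] at hk
    subst hk
    have h1 : (monomial 0 1 : KK p) = 1 := rfl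
    rw [h1, T_one b A1, map_one, _root_.one_mul]
  | h1 E i ih =>
    intro k hk z
    have h2 : (monomial (E + Finsupp.single i 1) 1 : KK p) = MvPolynomial.X i * monomial E 1 := by
      rw [MvPolynomial.X, MvPolynomial.monomial_mul, _root_.one_mul, add_comm]
    rw [wv_add, wv_single] at hk
    rw [h2, mult_X_mul b (HK_monomial E 1) i hk, A1.T_gc, LinearMap.comp_apply, ih _ rfl, T_X b A1,
      map_mul, eta_X]
    ring

theorem T_sum (A1 : b.SpecA1) {ι : Type} (s : Finset ι) (k : ℤ) (f : ι → KK p) (z : GG p) :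
    b.T (b.mult k (∑ i ∈ s, f i)) z = ∑ i ∈ s, b.T (b.mult k (f i)) z := by
  let φ : KK p →+ GG p := AddMonoidHom.mk' (fun f => b.T (b.mult k f) z) (fun f g => by
    rw [mult_add, A1.T_add, LinearMap.add_apply])
  exact map_sum φ f s

theorem T_mult (A1 : b.SpecA1) (k : ℤ) (f : KK p) (hf : HK p k f) (z : GG p) :
    b.T (b.mult k f) z = b.eta f * z := by
  have h1 : ∀ E : ℕ →₀ ℕ, (monomial E (coeff E f) : KK p) = C (coeff E f) * monomial E 1 := by
    intro E
    rw [MvPolynomial.C_mul_monomial, _root_.mul_one]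
  conv_lhs => rw [← MvPolynomial.support_sum_monomial_coeff f]
  conv_rhs => rw [← MvPolynomial.support_sum_monomial_coeff f]
  rw [T_sum b A1, map_sum, Finset.sum_mul]
  refine Finset.sum_congr rfl fun E hE => ?_
  rw [h1, T_C_mul b A1, T_monomial b A1 E k (hf (MvPolynomial.mem_support_iff.1 hE)), map_mul,
    eta_C]
  ring

/-! ### operations are determined by their action -/

theorem w'_aug : b.w' ≫ b.aug = b.MP.act := by
  apply (b.c_bij0 R P b.cP).1
  change (R ◁ b.c) ≫ b.w' ≫ b.aug = (R ◁ b.c) ≫ b.MP.act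
  rw [← Category.assoc, b.c_w', b.w_aug, b.c_lin]

theorem til_eq {m : ℤ} (γ : P⟦m⟧ ⟶ P) : b.til b.MP b.cP γ = b.Wm γ ≫ b.aug := by
  apply b.wext_unique b.cP
  rw [b.w_til, ← Category.assoc, b.w_Wm, Category.assoc, Category.assoc, w'_aug]
  unfold T.ext
  rw [shift_fm, Category.assoc]
  rfl

theorem T_inj (A1 : b.SpecA1) {m : ℤ} {γ γ' : P⟦m⟧ ⟶ P} (h : ∀ z, b.T γ z = b.T γ' z) : γ = γ' := by
  have h1 : ∀ E : ℕ →₀ ℕ, gc (rfl : m + dT p E = m + dT p E) (b.τ E) (T.ext b.MP (b.c⟦m⟧' ≫ γ)) =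
      gc rfl (b.τ E) (T.ext b.MP (b.c⟦m⟧' ≫ γ')) := by
    intro E
    have h2 : ∀ γ : P⟦m⟧ ⟶ P, PiM.map ((shiftFunctorZero 𝒯 ℤ).hom.app W ≫ b.aug)
        (b.ω (b.T γ (monomial E 1))) = PiM.of P (m + dT p E)
          (gc rfl (b.τ E) (T.ext b.MP (b.c⟦m⟧' ≫ γ))) := by
      intro γ
      rw [A1.ω_T, b.ω_monomial, map_of rfl, map_of (zero_add _), gc_zero_shift, ← gc_comp,
        ← til_eq, gc_map, b.w_til]
    apply of_inj
    rw [← h2 γ, ← h2 γ', h]
  apply b.cext_unique b.cP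
  exact (b.basis b.MP b.cP m fun E => gc rfl (b.τ E) (T.ext b.MP (b.c⟦m⟧' ≫ γ'))).unique h1
    fun _ => rfl

/-! ### the right unit modulo powers of the augmentation ideal -/

theorem vK_mem (a : ℕ) : vK p a ∈ II p := by
  cases a with
  | zero => exact Ideal.subset_span (Set.mem_insert _ _)
  | succ a => exact Ideal.subset_span (Set.mem_insert_of_mem _ ⟨a, rfl⟩)

theorem ηR_mem (i : ℕ) : b.ηR i ∈ (II p).map (C : KK p →+* GG p) := by
  have h1 : b.ηR i = (b.ηR i - ∑ a ∈ Finset.range (i + 2), C (vK p a) * tG p (i + 1 - a) ^ p ^ a) +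
      ∑ a ∈ Finset.range (i + 2), C (vK p a) * tG p (i + 1 - a) ^ p ^ a := by ring
  rw [h1]
  refine Ideal.add_mem _ ?_ ?_
  · rw [MvPolynomial.mem_map_C_iff]
    intro E
    exact Ideal.pow_le_self two_ne_zero (b.ηR_mod i E)
  · exact Ideal.sum_mem _ fun a _ => Ideal.mul_mem_right _ _ (Ideal.mem_map_of_mem _ (vK_mem a))

theorem map_eta_le : (II p).map b.eta ≤ (II p).map (C : KK p →+* GG p) := by
  unfold II
  rw [Ideal.map_span, Ideal.span_le]
  rintro _ ⟨x, hx, rfl⟩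
  rcases hx with rfl | ⟨i, rfl⟩
  · have h1 : b.eta (p : KK p) = C (p : KK p) := by
      rw [map_natCast, map_natCast]
    rw [h1]
    exact Ideal.mem_map_of_mem _ (Ideal.subset_span (Set.mem_insert _ _))
  · rw [eta_X]
    exact ηR_mem b i

theorem eta_II (t : ℕ) (f : KK p) (hf : f ∈ II p ^ t) (E : ℕ →₀ ℕ) :
    coeff E (b.eta f) ∈ II p ^ t := by
  have h1 : b.eta f ∈ ((II p) ^ t).map b.eta := Ideal.mem_map_of_mem _ hf
  rw [Ideal.map_pow] at h1
  have h2 := Ideal.pow_right_mono (map_eta_le b) t h1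
  rw [← Ideal.map_pow, MvPolynomial.mem_map_C_iff] at h2
  exact h2 E

/-- **leaf (SB1)** -/
theorem specB1 (A1 : b.SpecA1) : b.SpecB1 where
  T_mult k f hf z := T_mult b A1 k f hf z
  comm k l m f g hf hg h h' := by
    apply T_inj b A1
    intro z
    rw [A1.T_gc, A1.T_gc, LinearMap.comp_apply, LinearMap.comp_apply, T_mult b A1 k f hf,
      T_mult b A1 l g hg, T_mult b A1 l g hg, T_mult b A1 k f hf]
    ring
  eta_II t f hf E := eta_II b t f hf E
  eta_mod i f hf E := by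
    have h1 : b.eta f - ∑ a ∈ Finset.range (i + 2), C (vK p a) * tG p (i + 1 - a) ^ p ^ a =
        b.eta (f - MvPolynomial.X i) + (b.ηR i -
          ∑ a ∈ Finset.range (i + 2), C (vK p a) * tG p (i + 1 - a) ^ p ^ a) := by
      rw [map_sub, eta_X]
      ring
    rw [h1, MvPolynomial.coeff_add]
    exact Ideal.add_mem _ (eta_II b 2 _ hf E) (b.ηR_mod i E)

end Vale.Agent.P221.T.H598
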