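import Vale.Agent.P221.T.H598.BPSex
import Vale.Agent.P221.H509.Result
import Vale.Agent.P221.T.H817.SpecSrc
import Vale.Agent.P221.T.H817.FreeP2
import Vale.Agent.P221.H246.FreeWG

/-!
# P221, part T (helper598): existence of `BPS`, and the final theorem

* `exists_BPS` : the input (HB) of the final assembly;
* `thick_of_isBPFinite` : every `X` with `IsBPFinite S p n X` lies in the thick subcategory generated
  by any form of `BP⟨n⟩`.
-/

open CategoryTheory MonoidalCategory MonObj Limits Pretriangulated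

set_option linter.unusedSectionVars false

universe u

namespace Vale.Agent.P221.T.H598

open Vale.Agent.P251 Vale.Agent.P251.S Vale.Agent.P251.T Vale.Agent.P251.M Vale.Agent.P251.F
  Vale.Agent.P251.I EvenSpheres Vale.Agent.P257.H80 Vale.Agent.P251.Q
  Vale.Agent.P093.N0 Vale.Agent.P221.H746

section lib

variable {𝒯 : Type u} [Category.{0} 𝒯] [Preadditive 𝒯] [HasZeroObject 𝒯]
    [HasShift 𝒯 ℤ] [∀ n : ℤ, (shiftFunctor 𝒯 n).Additive] [Pretriangulated 𝒯] [IsTriangulated 𝒯]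
    [MonoidalCategory 𝒯] [SymmetricCategory 𝒯] [TensorTriangulated 𝒯] [MonoidalClosed 𝒯]
    [HasCoproducts.{0} 𝒯] [HasProducts.{0} 𝒯] [StableCat 𝒯]

variable {D : MUData 𝒯} {F : SpaceFunctor 𝒯} {e : F.S.obj CCF ≅ (stdEven 𝒯).L}
  {p : ℕ} [hp : Fact p.Prime] {B : 𝒯} [MonObj B] [IsCommMonObj B] {b : D.R ⟶ B} [IsMonHom b]

/-- **existence of `BPS`** -/
theorem exists_BPS (hD : MUUniv e D) (hA : MUAll D) (hb : IsBPMon p b)
    {Φ : MvPolynomial ℕ ℤ →+* HRing (stdEven 𝒯) B} (hΦ : lawOf b = (haz p).map Φ) :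
    ∃ (P W : 𝒯) (bs : BPS p B P W), ∀ i, ∃ (w : ℤ) (hw : sV p (i + 1) = 2 * w)
      (u : (stdEven 𝒯).S w ⟶ B), bs.v i = eqToHom (by rw [hw]) ≫ (stdSph w).inv ≫ u ∧
        HRing.of (stdEven 𝒯) B w u = Φ (MvPolynomial.X i) :=
  exists_BPS_of hD hb hΦ (fun cd => Vale.Agent.P221.T.H817.freeP hD hA hb hΦ cd)
    (fun cd => Vale.Agent.P221.H246.freeW hD hA hb hΦ cd)

end lib

section st

open Vale.Agent.P257.H702 Vale.Agent.P251.St Vale.Agent.P257.St

variable {T : SHCat} {S : Susp T} {p : ℕ} [hp : Fact p.Prime]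

/-- **Every `p`-complete homotopy `BP`-module whose homotopy is finitely generated over
`ℤ_p[v_1, …, v_n]` lies in the thick subcategory generated by any form of `BP⟨n⟩`.** -/
theorem thick_of_isBPFinite {n : ℕ} {B X : T.C} (hB : P221.St.IsForm S p n B)
    (hX : P221.St.IsBPFinite S p n X) : P221.St.Thick B X :=
  Vale.Agent.P221.H509.thick_of_isBPFinite_of (Vale.Agent.P221.T.specSrc p n)
    (fun hD hA _ _ _ _ _ _ hb hΦ => exists_BPS hD hA hb hΦ) hB hX

end st

end Vale.Agent.P221.T.H598
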