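import Vale.Agent.P221.T.SrcDef
import Vale.Agent.P221.H509.GrLin
import Vale.Agent.P221.H509.DCHom
import Vale.Agent.P221.T.H769.DCb

/-!
# P221, part T: the multiplications `mult k f : P⟦k⟧ ⟶ P`

* `hat_mul' : hat M (mul M h v y) = gc h (rmul v) (hat M y)`;
* `kk_homog` : homogeneous elements act homogeneously; `of_cls`;
* `mult_X_mul : mult k' (X i * f) = gc h (mult _ (X i)) (mult k f)`;
* `map_Wm_mult_C`.
-/

open CategoryTheory MonoidalCategory MonObj Limits Pretriangulated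
open MvPolynomial (C coeff monomial)
open Vale.Agent.P251.T Vale.Agent.P251.M Vale.Agent.P251.S

set_option linter.unusedSectionVars false

universe u

namespace Vale.Agent.P221.T.H598

variable {𝒯 : Type u} [Category.{0} 𝒯] [Preadditive 𝒯] [HasZeroObject 𝒯]
    [HasShift 𝒯 ℤ] [∀ n : ℤ, (shiftFunctor 𝒯 n).Additive] [Pretriangulated 𝒯] [IsTriangulated 𝒯]
    [MonoidalCategory 𝒯] [SymmetricCategory 𝒯] [TensorTriangulated 𝒯] [MonoidalClosed 𝒯]
    [HasCoproducts.{0} 𝒯] [HasProducts.{0} 𝒯] [StableCat 𝒯]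

section gen

variable {R : 𝒯} [MonObj R] {X Y : 𝒯}

theorem hat_eq_lx (M : ModStr R X) {k : ℤ} (y : (𝟙_ 𝒯)⟦k⟧ ⟶ X) : hat M y = H509.lx M y := by
  unfold hat T.ext fm H509.lx tensorSph ModStr.ext
  simp only [Iso.trans_inv, Functor.mapIso_inv, Iso.app_inv, Category.assoc]
  rfl

theorem rmul_eq_lx {m : ℤ} (v : (𝟙_ 𝒯)⟦m⟧ ⟶ R) : rmul v = H509.lx (ModStr.self R) v := by
  rw [← hat_eq_lx]
  rfl

theorem hat_mul' (M : ModStr R X) {m k k' : ℤ} (h : k + m = k') (v : (𝟙_ 𝒯)⟦m⟧ ⟶ R)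
    (y : (𝟙_ 𝒯)⟦k⟧ ⟶ X) : hat M (mul M h v y) = gc h (rmul v) (hat M y) := by
  have h1 : mul M h v y = H509.pr M h v y := by
    unfold mul H509.pr
    rw [hat_eq_lx]
  rw [h1, hat_eq_lx, H509.lx_pr, rmul_eq_lx, hat_eq_lx]

theorem map_of {Y Z : 𝒯} {j k k' : ℤ} (h : j + k = k') (f : Y⟦j⟧ ⟶ Z)
    (y : (𝟙_ 𝒯)⟦k⟧ ⟶ Y) : PiM.map f (PiM.of Y k y) = PiM.of Z k' (gc h y f) := by
  subst h
  unfold PiM.map
  rw [DirectSum.toAddMonoid_of]
  rfl

theorem of_inj {Y : 𝒯} {k : ℤ} {y z : (𝟙_ 𝒯)⟦k⟧ ⟶ Y} (h : PiM.of Y k y = PiM.of Y k z) : y = z :=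
  DirectSum.of_injective k h

theorem of_apply {Y : 𝒯} {k : ℤ} (y : (𝟙_ 𝒯)⟦k⟧ ⟶ Y) : (PiM.of Y k y) k = y :=
  DirectSum.of_eq_same (β := fun k => ((𝟙_ 𝒯)⟦k⟧ ⟶ Y)) k y

end gen

variable {p : ℕ} [Fact p.Prime] {R P W : 𝒯} [MonObj R] [IsCommMonObj R] (b : BPS p R P W)

/-- the weight of a monomial in the `v_i` -/
noncomputable def wv (p : ℕ) (E : ℕ →₀ ℕ) : ℤ := Finsupp.weight (fun i => sV p (i + 1)) E

theorem wv_add (E E' : ℕ →₀ ℕ) : wv p (E + E') = wv p E + wv p E' := map_add _ _ _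

theorem wv_single (i : ℕ) : wv p (Finsupp.single i 1) = sV p (i + 1) := by
  unfold wv
  rw [Finsupp.weight_single, one_smul]

theorem wv_zero : wv p 0 = 0 := map_zero _

/-- induction on monomials -/
theorem ind_add_single {Q : (ℕ →₀ ℕ) → Prop} (h0 : Q 0)
    (h1 : ∀ E i, Q E → Q (E + Finsupp.single i 1)) (E : ℕ →₀ ℕ) : Q E := by
  induction E using Finsupp.induction with
  | zero => exact h0
  | single_add a b f ha hb ih =>
    clear ha hb
    induction b with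
    | zero => rwa [Finsupp.single_zero, zero_add]
    | succ b ih' =>
      have h2 : Finsupp.single a (b + 1) + f = (Finsupp.single a b + f) + Finsupp.single a 1 := by
        rw [Finsupp.single_add, add_assoc, add_assoc, add_comm (Finsupp.single a 1)]
      rw [h2]
      exact h1 _ _ ih'

theorem kk_monomial {Y : 𝒯} (M : ModStr R Y) (hY : H395.PComplete p Y) (E : ℕ →₀ ℕ) :
    ∀ (a : ℤ_[p]) {k k' : ℤ} (_ : k + wv p E = k') (y : (𝟙_ 𝒯)⟦k⟧ ⟶ Y),
      ∃ z : (𝟙_ 𝒯)⟦k'⟧ ⟶ Y, b.kk M hY (monomial E a) (PiM.of Y k y) = PiM.of Y k' z := by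
  induction E using ind_add_single with
  | h0 =>
    intro a k k' h y
    rw [wv_zero, add_zero] at h
    subst h
    exact b.kk_C M hY a y
  | h1 E i ih =>
    intro a k k' h y
    rw [wv_add, wv_single] at h
    obtain ⟨z, hz⟩ := ih a (rfl : k + wv p E = k + wv p E) y
    have h2 : (monomial (E + Finsupp.single i 1) a : KK p) = MvPolynomial.X i * monomial E a := by
      rw [MvPolynomial.X, MvPolynomial.monomial_mul, _root_.one_mul, add_comm]
    refine ⟨mul M (by omega : k + wv p E + sV p (i + 1) = k') (b.v i) z, ?_⟩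
    rw [h2, map_mul]
    change b.kk M hY (MvPolynomial.X i) (b.kk M hY (monomial E a) (PiM.of Y k y)) = _
    rw [hz, b.kk_v M hY i (by omega : k + wv p E + sV p (i + 1) = k') z]

/-- homogeneous elements act homogeneously -/
theorem kk_homog {Y : 𝒯} (M : ModStr R Y) (hY : H395.PComplete p Y) {m : ℤ} {f : KK p}
    (hf : HK p m f) {k k' : ℤ} (h : k + m = k') (y : (𝟙_ 𝒯)⟦k⟧ ⟶ Y) :
    ∃ z : (𝟙_ 𝒯)⟦k'⟧ ⟶ Y, b.kk M hY f (PiM.of Y k y) = PiM.of Y k' z := by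
  have h1 : ∀ E ∈ f.support, ∃ z : (𝟙_ 𝒯)⟦k'⟧ ⟶ Y,
      b.kk M hY (monomial E (coeff E f)) (PiM.of Y k y) = PiM.of Y k' z := by
    intro E hE
    refine kk_monomial b M hY E _ ?_ y
    have h2 : wv p E = m := hf (MvPolynomial.mem_support_iff.1 hE)
    rw [h2, h]
  have h3 : ∀ E, ∃ z : (𝟙_ 𝒯)⟦k'⟧ ⟶ Y, E ∈ f.support →
      b.kk M hY (monomial E (coeff E f)) (PiM.of Y k y) = PiM.of Y k' z := by
    intro E
    by_cases hE : E ∈ f.support
    · obtain ⟨z, hz⟩ := h1 E hE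
      exact ⟨z, fun _ => hz⟩
    · exact ⟨0, fun h => absurd h hE⟩
  choose z hz using h3
  refine ⟨∑ E ∈ f.support, z E, ?_⟩
  conv_lhs => rw [← MvPolynomial.support_sum_monomial_coeff f, map_sum]
  rw [map_sum]
  refine (AddMonoidHom.finsetSum_apply _ _ _).trans ?_
  exact Finset.sum_congr rfl fun E hE => hz E hE

theorem cls_add (k : ℤ) (f g : KK p) : b.cls k (f + g) = b.cls k f + b.cls k g := by
  unfold BPS.cls
  rw [map_add]
  exact DirectSum.add_apply _ _ _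

theorem of_cls {k : ℤ} {f : KK p} (hf : HK p k f) : PiM.of P k (b.cls k f) =
    b.kk b.MP b.cP f (PiM.of P 0 (zr 𝒯 ≫ η[R] ≫ b.c)) := by
  obtain ⟨z, hz⟩ := kk_homog b b.MP b.cP hf (zero_add k) (zr 𝒯 ≫ η[R] ≫ b.c)
  unfold BPS.cls
  rw [hz, of_apply]

theorem cls_X_mul {k k' : ℤ} {f : KK p} (hf : HK p k f) (i : ℕ) (h : k + sV p (i + 1) = k') :
    b.cls k' (MvPolynomial.X i * f) = mul b.MP h (b.v i) (b.cls k f) := by
  have h1 : b.kk b.MP b.cP (MvPolynomial.X i * f) (PiM.of P 0 (zr 𝒯 ≫ η[R] ≫ b.c)) =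
      PiM.of P k' (mul b.MP h (b.v i) (b.cls k f)) := by
    rw [map_mul]
    change b.kk b.MP b.cP (MvPolynomial.X i) (b.kk b.MP b.cP f _) = _
    rw [← of_cls b hf, b.kk_v b.MP b.cP i h]
  unfold BPS.cls
  unfold BPS.cls at h1
  rw [h1, of_apply]

theorem HK_one : HK p 0 (1 : KK p) := MvPolynomial.isWeightedHomogeneous_one _ _

theorem HK_X (i : ℕ) : HK p (sV p (i + 1)) (MvPolynomial.X i : KK p) :=
  MvPolynomial.isWeightedHomogeneous_X _ _ _

theorem cls_one : b.cls 0 (1 : KK p) = zr 𝒯 ≫ η[R] ≫ b.c := by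
  apply of_inj
  rw [of_cls b HK_one, map_one]
  rfl

/-- `hat` of the unit -/
theorem hat_unit : hat b.MP (zr 𝒯 ≫ η[R] ≫ b.c) = (shiftFunctorZero 𝒯 ℤ).hom.app R ≫ b.c := by
  unfold hat T.ext
  have h1 : fm (tensorLeft R) (zr 𝒯 ≫ η[R] ≫ b.c) =
      (shiftFunctorZero 𝒯 ℤ).hom.app (R ⊗ 𝟙_ 𝒯) ≫ (R ◁ (η[R] ≫ b.c)) := by
    rw [fm_comp]
    congr 1
    unfold fm
    rw [Functor.commShiftIso_zero, Functor.CommShift.isoZero_inv_app, Category.assoc,
      ← Functor.map_comp, Iso.inv_hom_id_app]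
    simp
  rw [h1, Category.assoc]
  have h2 : ((ρ_ R).inv)⟦(0 : ℤ)⟧' ≫ (shiftFunctorZero 𝒯 ℤ).hom.app (R ⊗ 𝟙_ 𝒯) =
      (shiftFunctorZero 𝒯 ℤ).hom.app R ≫ (ρ_ R).inv :=
    (shiftFunctorZero 𝒯 ℤ).hom.naturality _
  rw [← Category.assoc, h2, Category.assoc]
  congr 1
  rw [MonoidalCategory.whiskerLeft_comp, Category.assoc, ← b.c_lin, ← Category.assoc (R ◁ η[R]),
    MonObj.mul_one, ← Category.assoc, Iso.inv_hom_id, Category.id_comp]

theorem hat_cls_X (i : ℕ) : hat b.MP (b.cls (sV p (i + 1)) (MvPolynomial.X i)) =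
    rmul (b.v i) ≫ b.c := by
  have h1 := cls_X_mul b HK_one i (zero_add (sV p (i + 1)))
  rw [_root_.mul_one] at h1
  rw [h1, cls_one, hat_mul', hat_unit, gc_zero_shift]

theorem c_mult (k : ℤ) (f : KK p) : b.c⟦k⟧' ≫ b.mult k f = hat b.MP (b.cls k f) := b.c_cext b.cP _

theorem mult_add (k : ℤ) (f g : KK p) : b.mult k (f + g) = b.mult k f + b.mult k g := by
  apply b.cext_unique b.cP
  rw [Preadditive.comp_add, c_mult, c_mult, c_mult, cls_add, hat_add]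

theorem mult_one : b.mult 0 (1 : KK p) = (shiftFunctorZero 𝒯 ℤ).hom.app P := by
  apply b.cext_unique b.cP
  rw [c_mult, cls_one, hat_unit]
  exact ((shiftFunctorZero 𝒯 ℤ).hom.naturality b.c).symm

/-- **multiplicativity** -/
theorem mult_X_mul {k k' : ℤ} {f : KK p} (hf : HK p k f) (i : ℕ) (h : k + sV p (i + 1) = k') :
    b.mult k' (MvPolynomial.X i * f) =
      gc h (b.mult (sV p (i + 1)) (MvPolynomial.X i)) (b.mult k f) := by
  apply b.cext_unique b.cP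
  rw [c_mult, comp_gc, c_mult, hat_cls_X, gc_map, c_mult, cls_X_mul b hf i h, hat_mul']

end Vale.Agent.P221.T.H598
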