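import Vale.Agent.P221.T.H746.SB
import Vale.Agent.P221.T.H769.F1
import Vale.Agent.P221.H598.V
import Vale.Agent.P221.T.H817.PiN

/-!
# P221, part (E3) (helper598): the algebraic system of the standard form

`AA p n = ℤ_p[v_1, …, v_n]` as a module over `KK p = ℤ_p[v_1, v_2, …]`, `v_j ↦ 0` for `j > n`;
`BB O` is the system of the homogeneous `KK p`-linear maps `GG p ⟶ AA p n`.

* `bb_H1` : the first Koszul cohomology of the initial segments of the operators of `η_R(x_l)` on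
  these functionals vanishes in degrees `c ≥ 0`.
-/

open MvPolynomial

set_option linter.unusedSectionVars false

namespace Vale.Agent.P221.T.H598

open Vale.Agent.P221.T.H746 Vale.Agent.P221.T.H817

variable {p : ℕ} [hp : Fact p.Prime] {n : ℕ}

/-- `ℤ_p[v_1, …, v_n]` -/
abbrev AA (p n : ℕ) [Fact p.Prime] : Type := MvPolynomial (Fin n) ℤ_[p]

/-- `ℤ_p[v_1, …, v_n]` as a module over `ℤ_p[v_1, v_2, …]` -/
noncomputable scoped instance modA : Module (KK p) (AA p n) := Module.compHom _ (piN p n)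

theorem smul_A (f : KK p) (a : AA p n) : f • a = piN p n f * a := rfl

variable (p n) in
/-- homogeneous elements -/
noncomputable def Ag (k : ℤ) : AddSubgroup (AA p n) :=
  (weightedHomogeneousSubmodule ℤ_[p] (fun i : Fin n => sV p (i + 1)) k).toAddSubgroup

theorem mem_Ag {k : ℤ} {a : AA p n} :
    a ∈ Ag p n k ↔ HK p k (rename (fun i : Fin n => (i : ℕ)) a) := (HK_RN_iff p).symm

theorem mem_Ag' {k : ℤ} {a : AA p n} :
    a ∈ Ag p n k ↔ a.IsWeightedHomogeneous (fun i : Fin n => sV p (i + 1)) k := Iff.rfl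

theorem piN_mem {k : ℤ} {f : KK p} (hf : HK p k f) : piN p n f ∈ Ag p n k := by
  rw [mem_Ag']
  refine aeval_WH (w := fun i : ℕ => sV p (i + 1)) (fun i => ?_) hf
  by_cases h : i < n
  · rw [dif_pos h]
    exact isWeightedHomogeneous_X _ _ _
  · rw [dif_neg h]
    exact isWeightedHomogeneous_zero _ _ _

theorem Ag_cast {k k' : ℤ} (h : k = k') {a : AA p n} (ha : a ∈ Ag p n k) : a ∈ Ag p n k' := h ▸ ha

theorem smul_mem_Ag {k m : ℤ} {f : KK p} {a : AA p n} (hf : HK p m f) (ha : a ∈ Ag p n k) :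
    f • a ∈ Ag p n (k + m) := by
  rw [smul_A, _root_.mul_comm]
  exact IsWeightedHomogeneous.mul (mem_Ag'.1 ha) (mem_Ag'.1 (piN_mem hf))

variable (p n) in
/-- functionals of degree `k` -/
noncomputable def BA (k : ℤ) : AddSubgroup (GG p →ₗ[KK p] AA p n) where
  carrier := {ζ | ∀ E, ζ (monomial E 1) ∈ Ag p n (k + dT p E)}
  add_mem' := fun {_ _} h h' E => (Ag p n _).add_mem (h E) (h' E)
  zero_mem' := fun _ => (Ag p n _).zero_mem
  neg_mem' := fun {_} h E => (Ag p n _).neg_mem (h E)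

theorem mem_BA {k : ℤ} {ζ : GG p →ₗ[KK p] AA p n} :
    ζ ∈ BA p n k ↔ ∀ E, ζ (monomial E 1) ∈ Ag p n (k + dT p E) := Iff.rfl

/-- the value of a linear map -/
theorem lin_apply (ζ : GG p →ₗ[KK p] AA p n) (z : GG p) :
    ζ z = ∑ E ∈ z.support, coeff E z • ζ (monomial E 1) := by
  conv_lhs => rw [z.as_sum, map_sum]
  refine Finset.sum_congr rfl fun E _ => ?_
  rw [← map_smul, smul_monomial, smul_eq_mul, _root_.mul_one]

variable {ld : Lead p n} {S : Src p n} (O : OpAlg ld S)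

theorem BA_comp {k m k' : ℤ} (h : k + m = k') {ζ : GG p →ₗ[KK p] AA p n} (hζ : ζ ∈ BA p n k)
    (γ : S.E m) : ζ ∘ₗ O.T m γ ∈ BA p n k' := by
  intro E
  rw [LinearMap.comp_apply, lin_apply]
  refine AddSubgroup.sum_mem _ fun E' _ => ?_
  refine Ag_cast ?_ (smul_mem_Ag (O.homog m γ E E') (hζ E'))
  omega

theorem BA_one {k : ℤ} {ζ : GG p →ₗ[KK p] AA p n} (hζ : ζ ∈ BA p n k) : ζ 1 ∈ Ag p n k := by
  have h := hζ 0
  rwa [dT_zero, add_zero] at h

/-- **the system of the standard form** -/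
noncomputable def BB : Sys S where
  A k := BA p n k
  Pi k := Ag p n k
  ev k :=
    { toFun := fun ζ => ⟨ζ.1 1, BA_one ζ.2⟩
      map_zero' := rfl
      map_add' := fun _ _ => rfl }
  act {k m k'} h :=
    { toFun := fun ζ =>
        { toFun := fun γ => ⟨ζ.1 ∘ₗ O.T m γ, BA_comp O h ζ.2 γ⟩
          map_zero' := Subtype.ext (by
            change ζ.1 ∘ₗ O.T m 0 = 0
            rw [map_zero, LinearMap.comp_zero])
          map_add' := fun γ γ' => Subtype.ext (by
            change ζ.1 ∘ₗ O.T m (γ + γ') = ζ.1 ∘ₗ O.T m γ + ζ.1 ∘ₗ O.T m γ'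
            rw [map_add, LinearMap.comp_add]) }
      map_zero' := by
        ext γ : 1
        exact Subtype.ext (LinearMap.zero_comp _)
      map_add' := fun ζ ζ' => by
        ext γ : 1
        exact Subtype.ext (LinearMap.add_comp _ _ _) }
  comm := fun i l {k k₁ k₂ k'} h₁ h₁' h₂ h₂' ζ => Subtype.ext (by
    change (ζ.1 ∘ₗ O.T _ (S.x i)) ∘ₗ O.T _ (S.x l) = (ζ.1 ∘ₗ O.T _ (S.x l)) ∘ₗ O.T _ (S.x i)
    refine LinearMap.ext fun z => ?_
    simp only [LinearMap.comp_apply]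
    rw [O.T_x, O.T_x, O.T_x, O.T_x, mul_left_comm])

/-- the sum of the homogeneous parts is direct -/
theorem Ag_indep (s : Finset ℤ) (y : ℤ → AA p n) (hy : ∀ k ∈ s, y k ∈ Ag p n k)
    (h0 : ∑ k ∈ s, y k = 0) : ∀ k ∈ s, y k = 0 := by
  classical
  intro k hk
  have h1 := congrArg (weightedHomogeneousComponent (fun i : Fin n => sV p (i + 1)) k) h0
  rw [map_sum, map_zero, Finset.sum_eq_single k] at h1
  · rwa [(mem_Ag'.1 (hy k hk)).weightedHomogeneousComponent_same] at h1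
  · intro j hj hjk
    exact (mem_Ag'.1 (hy j hj)).weightedHomogeneousComponent_ne k hjk.symm
  · intro h
    exact absurd hk h

/-- the coordinates -/
noncomputable def coB : Coor O (BB O) (AA p n) (Ag p n) where
  smul_mem hf ha := smul_mem_Ag hf ha
  indep := Ag_indep
  c k := (BA p n k).subtype
  inj k := Subtype.val_injective
  range k ζ := ⟨fun ⟨a, ha⟩ => ha ▸ a.2, fun h => ⟨⟨ζ, h⟩, rfl⟩⟩
  act h a γ := rfl
  e k := (Ag p n k).subtype
  e_inj k := Subtype.val_injective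
  e_range k y := ⟨fun ⟨a, ha⟩ => ha ▸ a.2, fun h => ⟨⟨y, h⟩, rfl⟩⟩
  ev k a := rfl

/-- the quotient map -/
noncomputable def gB : GG p →ₗ[KK p] AA p n where
  toFun z := piN p n (coeff 0 z)
  map_add' z w := by rw [coeff_add, map_add]
  map_smul' f z := by
    rw [coeff_smul, smul_eq_mul, map_mul]
    rfl

theorem gB_monomial (E : ℕ →₀ ℕ) :
    gB (p := p) (n := n) (monomial E 1) = if E = 0 then 1 else 0 := by
  classical
  change piN p n (coeff 0 (monomial E 1)) = _
  rw [coeff_monomial]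
  split_ifs with h
  · exact map_one _
  · exact map_zero _

theorem gB_mem : gB (p := p) (n := n) ∈ BA p n 0 := by
  intro E
  rw [gB_monomial]
  split_ifs with h
  · rw [h, dT_zero, add_zero]
    exact isWeightedHomogeneous_one _ _
  · exact (Ag p n _).zero_mem

/-- the filtered system -/
theorem exists_FS : ∃ T : ∀ d, FS (BB O) (grR p n) d, Approx (BB O) T (⟨gB, gB_mem⟩ : BA p n 0) := by
  refine specSB p n ld S O (BB O) (AA p n) (Ag p n) (coB O) 1 ?_ (fun k z hz => ?_) _ fun E => ?_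
  · exact isWeightedHomogeneous_one _ _
  · refine ⟨z, ⟨mem_Ag.1 hz, ?_⟩, ?_⟩
    · rw [smul_A, piN_rename, _root_.mul_one]
    · rintro f ⟨-, hf⟩
      rw [hf, smul_A, piN_rename, _root_.mul_one]
  · exact gB_monomial E

/-- **The first Koszul cohomology of the initial segments vanishes.** -/
theorem bb_H1 (m : ℕ) (c : ℤ) (hc : 0 ≤ c) (ψ : ℕ → (GG p →ₗ[KK p] AA p n))
    (hψ : ∀ l < m, ∀ E, ψ l (monomial E 1) ∈ Ag p n (c + dd p n l + dT p E))
    (hcomm : ∀ i < m, ∀ l < m, ψ l ∘ₗ O.T _ (S.x i) = ψ i ∘ₗ O.T _ (S.x l)) :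
    ∃ φ : GG p →ₗ[KK p] AA p n, (∀ E, φ (monomial E 1) ∈ Ag p n (c + dT p E)) ∧
      ∀ l < m, φ ∘ₗ O.T _ (S.x l) = ψ l := by
  classical
  obtain ⟨T, -⟩ := exists_FS O
  have hp2 : 2 ≤ p := hp.out.two_le
  have hV : Van p n {l | l < m} (grR p n) 0 := van_R (n := n) hp2 m (by
    have h1 : (2 : ℤ) ≤ p := by exact_mod_cast hp2
    have h2 : (p : ℤ) ≤ (p : ℤ) ^ (n + 1) := le_self_pow₀ (by linarith) (Nat.succ_ne_zero n)
    linarith)
  have hdd : ∀ l, 0 ≤ c + dd p n l := fun l => by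
    have := H769.dd_nonneg hp.out.pos n l
    linarith
  -- the given elements
  let ψ' : ∀ l, (BB O).A (c + dd p n l) := fun l =>
    if h : l < m then (⟨ψ l, hψ l h⟩ : BA p n (c + dd p n l)) else 0
  have hψ' : ∀ l (h : l < m), ψ' l = (⟨ψ l, hψ l h⟩ : BA p n (c + dd p n l)) := fun l h => dif_pos h
  -- a common filtration
  choose s hs using fun l => (T 0).exh (hdd l)
  obtain ⟨t, ht⟩ : ∃ t : ℤ, ∀ l < m, t + 1 ≤ s l := by
    clear hcomm hV
    clear ψ' hψ' hψ
    induction m with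
    | zero => exact ⟨0, fun l hl => absurd hl (Nat.not_lt_zero l)⟩
    | succ m ih =>
      obtain ⟨t, ht⟩ := ih
      refine ⟨min t (s m - 1), fun l hl => ?_⟩
      rcases Nat.lt_succ_iff_lt_or_eq.1 hl with h | rfl
      · exact le_trans (by have := min_le_left t (s m - 1); omega) (ht l h)
      · have := min_le_right t (s l - 1)
        omega
  obtain ⟨φ, -, hφ⟩ := H769.specF1 hp.out.pos S (BB O) (RR p n) (grR p n) 0 (T 0) {l | l < m} hV c t
    hc ψ' (fun l hl => (T 0).mono (ht l hl) (by rw [hs]; trivial)) (fun i hi l hl k' h h' => by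
      rw [hψ' l hl, hψ' i hi]
      exact Subtype.ext (hcomm i hi l hl))
  refine ⟨φ.1, φ.2, fun l hl => ?_⟩
  have h1 := hφ l hl
  rw [hψ' l hl] at h1
  exact congrArg Subtype.val h1

end Vale.Agent.P221.T.H598
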