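import Vale.Agent.P221.T.H598.BPSex
import Vale.Agent.P221.H509.Result
import Vale.Agent.P221.T.H817.SpecSrc

/-!
# P221, part T (helper598): the input (HB) of the final assembly
-/

open CategoryTheory MonoidalCategory MonObj Limits Pretriangulated

set_option linter.unusedSectionVars false

noncomputable section

namespace Vale.Agent.P221.T.H598

open Vale.Agent.P251 Vale.Agent.P251.S Vale.Agent.P251.T Vale.Agent.P251.M Vale.Agent.P251.F
  Vale.Agent.P251.I EvenSpheres Vale.Agent.P257.H702 Vale.Agent.P257.H80 Vale.Agent.P251.Q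
  Vale.Agent.P251.St Vale.Agent.P257.St Vale.Agent.P221.H746 Vale.Agent.P093.N0
open Vale.Agent.P221.T.H924 (CompD)

variable {T : SHCat} {S : Susp T} {p : ℕ} [hp : Fact p.Prime]

/-- (HB), from the freeness of the homotopy of the completions -/
theorem HB_of
    (hP : ∀ {D : MUData T.C} (_ : MUUniv (M.lineIso S.toSpaceFunctor) D) (_ : MUAll D) {R : T.C}
      [MonObj R] [IsCommMonObj R] (b₀ : D.R ⟶ R) [IsMonHom b₀]
      (Φ : MvPolynomial ℕ ℤ →+* HRing (stdEven T.C) R), IsBPMon p b₀ →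
      lawOf b₀ = (haz p).map Φ → ∀ {P W : T.C} (cd : CompD p R P W), FreeP Φ cd)
    (hW : ∀ {D : MUData T.C} (_ : MUUniv (M.lineIso S.toSpaceFunctor) D) (_ : MUAll D) {R : T.C}
      [MonObj R] [IsCommMonObj R] (b₀ : D.R ⟶ R) [IsMonHom b₀]
      (Φ : MvPolynomial ℕ ℤ →+* HRing (stdEven T.C) R), IsBPMon p b₀ →
      lawOf b₀ = (haz p).map Φ → ∀ {P W : T.C} (cd : CompD p R P W), FreeW b₀ Φ cd) :
    ∀ {D : MUData T.C} (_ : MUUniv (M.lineIso S.toSpaceFunctor) D) (_ : MUAll D) {R : T.C}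
      [MonObj R] [IsCommMonObj R] (b₀ : D.R ⟶ R) [IsMonHom b₀]
      (Φ : MvPolynomial ℕ ℤ →+* HRing (stdEven T.C) R), IsBPMon p b₀ →
      lawOf b₀ = (haz p).map Φ →
        ∃ (Pc W : T.C) (b : BPS p R Pc W), Vale.Agent.P221.H509.VPhi b Φ := by
  intro D hD hA R _ _ b₀ _ Φ hb hΦ
  exact exists_BPS_of hD hb hΦ (hP hD hA b₀ Φ hb hΦ) (hW hD hA b₀ Φ hb hΦ)

end Vale.Agent.P221.T.H598
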